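import Crest.Agent.X212.Op78.Sym
import Crest.Agent.X212.Crt72.Props

/-!
# Row 212 (helper78): the leaf `Crt72.Op3Stmt`
-/

set_option autoImplicit false
set_option linter.unusedSectionVars false
set_option maxHeartbeats 400000
noncomputable section
open scoped Manifold ContDiff Topology InnerProductSpace
open MeasureTheory Finset Filter

namespace Crest.Agent.X212.Op78
open An An.Pre Sob92 Wz78 Cyf70 Map77 Nd18
open Crt72 (up dw eA eP eG YF vy ph pv lf RpT OpY)

variable {E3 : Type} [NormedAddCommGroup E3] [NormedSpace ℝ E3] [FiniteDimensional ℝ E3]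
  [MeasurableSpace E3] [BorelSpace E3]
  {H3 : Type} [TopologicalSpace H3] {I3 : ModelWithCorners ℝ E3 H3} [I3.Boundaryless]
  {Y : Type} [TopologicalSpace Y] [ChartedSpace H3 Y] [IsManifold I3 ∞ Y] [T2Space Y]
  [MeasurableSpace Y] [BorelSpace Y] [SecondCountableTopology Y] [CompactSpace Y]
  {κ : Type} [Fintype κ] {lam : Type} [Fintype lam]

section lin
variable {A : Type} [NormedAddCommGroup A] [InnerProductSpace ℝ A]

@[simp] theorem up_none (α : Fm κ A) : up κ A α none = 0 := rfl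
@[simp] theorem up_some (α : Fm κ A) (a : κ) : up κ A α (some a) = α a := rfl
@[simp] theorem dw_apply (α : Fm (Option κ) A) (a : κ) : dw κ A α a = α (some a) := rfl
@[simp] theorem ij_none (ξ : A) : ij A (none : Option κ) ξ none = ξ := by simp [ij]
@[simp] theorem ij_some (ξ : A) (a : κ) : ij A (none : Option κ) ξ (some a) = 0 := by simp [ij]

end lin

section rows
variable {K : Type} [Fintype K] [DecidableEq K] {F : Fr I3 Y κ} {d : Bd (Y × ℝ) (Option κ) K}
  {W : Option κ → Y → En K} {Φ : Y → Eu K} {w : Y → Cf (Option κ) K}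

/-- twice the `Y`-part of the form, and the spinor -/
def vv : CL (Cf (Option κ) K) (Cf (Option κ) K) :=
  sm2 (up κ _ ∘L ((2 : ℝ) • dw κ _)) (ContinuousLinearMap.id ℝ _)

@[simp] theorem vv_none (u : Cf (Option κ) K) : fa (vv u) none = 0 := by simp [vv]
@[simp] theorem vv_some (u : Cf (Option κ) K) (a : κ) :
    fa (vv u) (some a) = (2 : ℝ) • fa u (some a) := by simp [vv]
@[simp] theorem fp_vv (u : Cf (Option κ) K) : fp (vv u) = fp u := by simp [vv]

variable (W) in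
/-- the adjoint connection on the cross-section -/
abbrev aY : κ → Y → En (K × K) := fun a y => adc (W (some a) y)

variable (F d W Φ) in
/-- the operator on the cross-section -/
abbrev LY : Op Y κ (Cf (Option κ) K) (Cf (Option κ) K) :=
  sop (sl0 (sful d (cyl F) (fun a x => W a x.1) fun x => Φ x.1))

theorem nab_none {V : Type} [NormedAddCommGroup V] [InnerProductSpace ℝ V]
    {C : Option κ → Y × ℝ → V →L[ℝ] V} {u : Y → V} (hu : Sm I3 u) {x : Y × ℝ} (h : C none x = 0) :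
    nab (IC I3) (cyl F).e C none (fun x => u x.1) x = 0 := by
  rw [nab, h, zero_apply, add_zero]; exact congrFun (D_none_fst F.toPre hu) x

variable (C : Cp d (cyl F) (cyl F).Gam fun a x => W a x.1) (h0 : ∀ y, W none y = 0) (hw : Sm I3 w)
  (pw : ∀ x, d.pC x (w x.1) = w x.1) (y : Y)
include C

theorem p2_dt {η : Fm (Option κ × Option κ) (HS K)} {n : κ → HS K} {x : Y × ℝ}
    (h1 : ∀ e, η (none, some e) = -n e) (h2 : ∀ e, η (some e, none) = n e)
    (h3 : ∀ e f, η (some e, some f) = 0) (hg : ∀ e, d.g x (n e) = n e) (c : κ)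
    (hP : ∑ e, F.P c e x.1 • n e = n c) : d.p2 x η (none, some c) = -(1 / 2 : ℝ) • n c := by
  have v := C.ok.vol x
  have o1 : ∀ a b, d.o none a none b x = 0 := fun a b => by
    linarith [v.a1 none a none b, v.a2 a none none b]
  have o2 : ∀ a b, d.o none a b none x = 0 := fun a b => by linarith [v.a3 none a b none, o1 a b]
  rw [C.ok.p2, Map77.idx_apply, Fintype.sum_prod_type, ← hP]
  simp only [Fintype.sum_option, sdm, Bd.Px, ← C.P, cyl, cP, h1, h2, h3, o1, o2, map_neg, hg,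
    map_zero, smul_zero, sum_const_zero, add_zero, smul_sum]
  simp only [mul_zero, sub_zero, zero_div, zero_smul, zero_add, ← sum_add_distrib]
  exact sum_congr rfl fun e _ => by module

include hw

theorem LY_app : (LY F d W Φ).app F w y =
    Op.tr ((d.full (cyl F) (base (fun a x => W a x.1) 0)).σ none (y, 0))
      ((sful d (cyl F) (fun a x => W a x.1) fun x => Φ x.1).app (cyl F) (fun x => w x.1) (y, 0)) :=
  app_sop _ hw y

include h0 pw

/-- the `dt`-row -/
theorem LY_none : fa ((LY F d W Φ).app F w y) none =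
    ∑ a, (nab I3 F.e (aY W) a (fun z => fa (w z) (some a)) y
      + F.dv a y • fa (w y) (some a)) + (2 : ℝ) • d.g (y, 0) (hsL (rk1 (fp (w y)) (Φ y))) := by
  have al := alg_sful (F := cyl F) (W := fun a x => W a x.1) (Φ := fun x => Φ x.1) C.ok
  have h1 := g_of (d := d) (x := (y, 0)) (v := (sful d (cyl F) (fun a x => W a x.1)
    fun x => Φ x.1).app (cyl F) (fun x => w x.1) (y, 0)) (by
      have e1 := al.qσ
      have e2 := al.qB
      change ∀ a x v, ps d.g d.pE x _ = _ at e1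
      change ∀ x v, ps d.g d.pE x _ = _ at e2
      simp only [Op.app, Pre.op, map_add, map_sum, e1, e2])
  have h2 : ∀ η, d.p2 (y, 0) η (none, none) = 0 := fun η => by
    have := (C.ok.sd_p2 (y, 0) η).anti none none
    rwa [eq_neg_iff_add_eq_zero, ← two_smul ℝ, smul_eq_zero_iff_right two_ne_zero] at this
  have s : ∀ a, Sm I3 fun z => fa (w z) a := fun a z => SA.clm (pj _ a ∘L fa) (hw z)
  rw [LY_app C hw, C.ok.tr_full, h1, sful_row C (sm_fst hw) pw, Fintype.sum_option,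
    nab_none (s none) (by simp [h0, adc])]
  simp only [fun a => nab_slc (F := F) (C := adw fun a x => W a x.1) (sm_fst (s (some a))) a y]
  simp [ea_apply, h2, Bd.Px, ← C.P, cyl, cP, cd]

/-- the rows of the forms on `Y` -/
theorem LY_some (c : κ) : fa ((LY F d W Φ).app F w y) (some c) =
    d.p2 (y, 0) (s2 _ _ (lin0 d (cyl F) (fun a x => W a x.1) (fun x => Φ x.1)
      (fun x => vv (w x.1)) (y, 0))) (none, some c) -
      nab I3 F.e (aY W) c (fun z => fa (w z) none) y := by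
  classical
  have s : ∀ a, Sm I3 fun z => fa (w z) a := fun a z => SA.clm (pj _ a ∘L fa) (hw z)
  have sv : Sm (IC I3) fun x : Y × ℝ => vv (w x.1) := fun x => SA.clm vv (sm_fst hw x)
  have n0 := fun {u : Y → HS K} (hu : Sm I3 u) =>
    nab_none (F := F) (C := adw fun a x => W a x.1) hu (x := (y, 0)) (by simp [h0, adc])
  have n1 : ∀ {u : Y → HS K}, Sm I3 u → ∀ a, nab (IC I3) (cyl F).e (adw fun a x => W a x.1) (some a)
      (fun x => u x.1) (y, 0) = nab I3 F.e (aY W) a u y := fun hu a => nab_slc (sm_fst hu) a y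
  have s2' : ∀ a, Sm I3 fun z => (2 : ℝ) • fa (w z) a := fun a z =>
    SA.smul contMDiffAt_const (s a z)
  have hc : Con I3 F.P (aY W) :=
    ⟨fun a => sm_slice_fst (C.con_adw.sm (some a)) 0, fun a y => by
      simpa [Fintype.sum_option, cyl, cP] using C.con_adw.proj (some a) (y, 0)⟩
  have key := p2_dt C (x := (y, 0)) (η := (2 : ℝ) • (WithLp.toLp 2 fun s =>
      dE (cyl F) (fun a x => W a x.1) (fun x => fa (w x.1)) (y, 0) s -
        (1 / 2 : ℝ) • mm d (fun x => Φ x.1) (y, 0) (fp (w y)) s) -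
      s2 _ _ (lin0 d (cyl F) (fun a x => W a x.1) (fun x => Φ x.1) (fun x => vv (w x.1)) (y, 0)))
    (n := fun e => (2 : ℝ) • nab I3 F.e (aY W) e (fun z => fa (w z) none) y) (fun e => ?_)
    (fun e => ?_) (fun e f => ?_) (fun e => ?_) c ?_
  · rw [LY_app C hw, C.ok.tr_full, sful_crv C (sm_fst hw) pw, C.ok.prj2.idem]
    simp only [map_sub, map_smul, PiLp.sub_apply, PiLp.smul_apply, sub_eq_iff_eq_add'] at key
    simp only [map_sub, f2_i1, f2_i2, sub_zero, PiLp.add_apply, ea_apply, Bd.Px, ← C.P,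
      show (cyl F).P (some c) none (y, 0) = 0 from rfl, zero_smul, zero_add]
    exact key.trans (by module)
  iterate 3
    simp only [PiLp.sub_apply, PiLp.smul_apply, s2_lin0 C.P sv, dE, vv_none, vv_some, fp_vv,
      n0 (s _), n1 (s _), n0 (s2' _), n1 (s2' _), nab_csmul _ _ (s _ y), Fintype.sum_option,
      n1 contMDiff_const]
    simp [cyl, cc, nab, smul_sub, smul_smul, smul_sum, mul_comm]
  · rw [map_smul, ← n1 (s none), Cp.par_nab (C.sg _) (C.g _ _) (sm_fst (s none) _)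
      fun x => g_fa C.ok (pw x) none]
  · simp only [smul_comm _ (2 : ℝ), ← smul_sum, (frm F).projN hc]

/-- the spinor row -/
theorem LY_fp (hm : Mh d) (hΦ : d.sp (y, 0) (Φ y) = Φ y) : fp ((LY F d W Φ).app F w y) =
    -d.ρ none (y, 0) (f2 _ _ (lin0 d (cyl F) (fun a x => W a x.1) (fun x => Φ x.1)
      (fun x => vv (w x.1)) (y, 0))) + (2 : ℝ) • opL (fa (w y) none) (Φ y) := by
  classical
  have sv : Sm (IC I3) fun x : Y × ℝ => vv (w x.1) := fun x => SA.clm vv (sm_fst hw x)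
  have k1 := fun a => hm.gp (y, 0) (fa (w y) a) _ (g_fa C.ok (pw (y, 0)) a) hΦ
  have k2 := fun a => Cp.par_nab (F := cyl F) (x := (y, 0)) (C.ssp _) (C.sp a _)
    (SA.clm fp (sm_fst hw _)) fun x => sp_of (pw x)
  have k3 : ∀ a v, d.sp (y, 0) v = v → d.sm (y, 0) (d.ρ a (y, 0) v) = d.ρ a (y, 0) v :=
    fun a v h => by rw [← h, C.ok.mp]
  have k4 := C.ok.clp none none (y, 0) (opL (fa (w y) none) (Φ y))
  rw [k1, ← C.P, ← two_smul ℝ] at k4
  rw [LY_app C hw, C.ok.tr_full, sful_dir C (sm_fst hw) pw, C.ok.sm.idem, f2_lin0 sv]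
  simp only [map_sub, s2_i1, s2_i2, zero_sub, map_add, map_smul, dir, cl, map_sum, k3 _ _ (k1 _),
    k3 _ _ (k2 _), fp_vv, Fintype.sum_option, vv_none, vv_some, smul_apply, map_zero, zero_apply,
    zero_add, smul_add, k4, ← smul_sum, show (cyl F).P none none (y, 0) = 1 from rfl]
  module

end rows

theorem nq_slc {F : Fr I3 Y κ} {V V' : Type} [NormedAddCommGroup V] [InnerProductSpace ℝ V] [NormedAddCommGroup V']
    [InnerProductSpace ℝ V'] (σ : Option κ → Y × ℝ → V →L[ℝ] V') (B : Y × ℝ → V →L[ℝ] V')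
    (b : Y × ℝ → V →L[ℝ] V →L[ℝ] V') {u : Y → V} (hu : Sm I3 u) (y : Y) :
    Nq (cyl F).toPre σ B b (fun x => u x.1) (y, 0) =
      Nq F.toPre (sC σ) (fun y => B (y, 0)) (fun y => b (y, 0)) u y := by
  have e1 := congrFun (D_none_fst F.toPre hu) (y, 0)
  have e2 := fun a => congrFun (D_some_fst F.toPre hu a) (y, 0)
  simp only [Nq, Pre.op, Fintype.sum_option, cyl, e1, e2, Pi.zero_apply, map_zero, zero_add]

variable (D : YD I3 Y κ lam) (β : YC Y κ lam)

/-- the rows of the gradient -/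
def RA (y : Y) : CL (Ef (Option κ) (Fin β.m.N)) (Fm κ β.m.A) :=
  tp fun a => (1 / 2 : ℝ) • (pj _ (none, some a) ∘L (bz D β).p2 (y, 0) ∘L s2 _ _)

def RP (y : Y) : CL (Ef (Option κ) (Fin β.m.N)) β.m.V := -(β.m.ρ none y ∘L f2 _ _)

theorem RP_apply (y : Y) (v : Ef (Option κ) (Fin β.m.N)) :
    RP β y v = -β.m.ρ none y (f2 _ _ v) := rfl

variable {β} in
/-- a variation as a function on the cylinder -/
def ev (α : Y → Fm κ β.m.A) (φ : Y → β.m.V) (x : Y × ℝ) : Cf (Option κ) (Fin β.m.N) :=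
  eA κ _ (α x.1) + eP κ _ (φ x.1)

/-- the configuration as a function on the cylinder -/
abbrev uz : Y × ℝ → Cf (Option κ) (Fin β.m.N) := base (fun a x => β.W a x.1) fun x => β.Φ x.1

variable {D β} (hD : D.OK) (A : D.Adm β) {α : Y → Fm κ β.m.A} {φ : Y → β.m.V}

theorem sm_ev (hα : Sm I3 α) (hφ : Sm I3 φ) : Sm I3 fun y => ev α φ (y, 0) :=
  fun y => (SA.clm _ (hα y)).add (SA.clm _ (hφ y))

include hD A

theorem sm_uz : Sm (IC I3) (uz β) := sm_base (cp_bz hD A).con.sm A.adm.sm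

theorem z0_eq (hα : Sm I3 α) (hφ : Sm I3 φ) (y : Y) :
    (YF.z0 D).gA (vy β α φ) y = RA D β y ((bz D β).N D.Z (uz β + ev α φ) (y, 0)) ∧
    (YF.z0 D).gP (vy β α φ) y = RP β y ((bz D β).N D.Z (uz β + ev α φ) (y, 0)) := by
  have hW : ∀ a, Sm (IC I3) fun x : Y × ℝ => β.W a x.1 + opL (up κ _ (α x.1) a) := fun a x =>
    ((cp_bz hD A).con.sm a x).add (SA.clm (opL ∘L pj _ a ∘L up κ _) (sm_fst hα x))
  have hΦ : Sm (IC I3) fun x : Y × ℝ => β.Φ x.1 + φ x.1 := A.adm.sm.add (sm_fst hφ)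
  have e : base (fun a (x : Y × ℝ) => β.W a x.1 + opL (up κ _ (α x.1) a))
      (fun x => β.Φ x.1 + φ x.1) = uz β + ev α φ := _root_.funext fun x =>
    ext2 (fm_ext fun a => by simp [ev, eA, eP]) (by simp [ev, eA, eP])
  have h1 : (cy (vy β α φ)).eC D.B D.G Crt72.pt0 (y, 0) = eCd (bz D β) D.Z
      (fun a x => β.W a x.1 + opL (up κ _ (α x.1) a)) (fun x => β.Φ x.1 + φ x.1) (y, 0) :=
    (eC_eq (c := cy (vy β α φ)) hW hΦ hD.G.P (y, 0)).trans (sub_zero _)
  have h2 : (cy (vy β α φ)).eD D.G Crt72.pt0 (y, 0) = eDd (bz D β) D.Z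
      (fun a x => β.W a x.1 + opL (up κ _ (α x.1) a)) (fun x => β.Φ x.1 + φ x.1) (y, 0) :=
    (eD_eq (B := D.B) (c := cy (vy β α φ)) hW hΦ (y, 0)).trans (sub_zero _)
  rw [eCd, e] at h1
  rw [eDd, e] at h2
  refine ⟨fm_ext fun a => congrArg (fun η : Fm _ β.m.A => (1 / 2 : ℝ) • η (none, some a)) h1, ?_⟩
  rw [RP_apply, ← h2]
  rfl

theorem deriv_z0 (hα : Sm I3 α) (hφ : Sm I3 φ) (y : Y) :
    deriv (F := Fm κ β.m.A) (fun ε : ℝ => (YF.z0 D).gA (vy β (ε • α) (ε • φ)) y) 0 =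
      RA D β y (lin0 (bz D β) D.Z (fun a x => β.W a x.1) (fun x => β.Φ x.1) (ev α φ) (y, 0)) ∧
    deriv (F := β.m.V) (fun ε : ℝ => (YF.z0 D).gP (vy β (ε • α) (ε • φ)) y) 0 =
      RP β y (lin0 (bz D β) D.Z (fun a x => β.W a x.1) (fun x => β.Φ x.1) (ev α φ) (y, 0)) := by
  have h := hasDerivAt_nq (F := D.Z.toPre) (σ := (bz D β).σ) (Bc D.Z) (bz D β).β (sm_uz hD A)
    (v := ev α φ) (sm_fst (sm_ev hα hφ)) (y, 0)
  have e : ∀ ε : ℝ, ev (ε • α) (ε • φ) = ε • ev α φ := fun ε => _root_.funext fun x => by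
    simp [ev]
  have k := fun ε : ℝ => z0_eq hD A (α := ε • α) (φ := ε • φ)
    ((contMDiff_const (I' := 𝓘(ℝ, ℝ)) (c := ε)).smul hα)
    ((contMDiff_const (I' := 𝓘(ℝ, ℝ)) (c := ε)).smul hφ) y
  simp only [e] at k
  exact ⟨(congrArg (deriv · (0 : ℝ)) (_root_.funext fun ε => (k ε).1)).trans
      ((RA D β y).hasFDerivAt.comp_hasDerivAt 0 h).deriv,
    (congrArg (deriv · (0 : ℝ)) (_root_.funext fun ε => (k ε).2)).trans
      ((RP β y).hasFDerivAt.comp_hasDerivAt 0 h).deriv⟩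

/-- the extended Hessian is the operator on the cross-section -/
theorem lf_eq (w : Sec I3 (ph D β)) (y : Y) :
    lf D β w.1 y = (sop (sl0 (sz D β))).app D.F w.1 y := by
  have C := cp_bz hD A
  have hw := w.2.1
  have pw : ∀ x, (bz D β).pC x (w.1 x.1) = w.1 x.1 := fun x => by
    rw [show (bz D β).pC x = (bz D β).pC (x.1, 0) from
      (congrFun (Iv.eq (Bd.In.pC (F := fun _ => D.Z) (in_bz hD A))) x).symm]
    exact w.2.2.2 x.1
  have s : ∀ a, Sm I3 fun z => fa (w.1 z) a := fun a z => SA.clm (pj _ a ∘L fa) (hw z)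
  obtain ⟨h1, h2⟩ := deriv_z0 hD A (α := fun z => (2 : ℝ) • dw κ _ (fa (w.1 z)))
    (φ := fun z => fp (w.1 z)) (fun z => SA.smul contMDiffAt_const (SA.clm (dw κ _ ∘L fa) (hw z)))
    (fun z => SA.clm fp (hw z)) y
  have e : ev (fun z => (2 : ℝ) • dw κ _ (fa (w.1 z))) (fun z => fp (w.1 z)) = fun x => vv (w.1 x.1) :=
    _root_.funext fun x => ext2 (by simp [ev, eA, eP, vv]) (by simp [ev, eA, eP, vv])
  have e1 := LY_none (Φ := β.Φ) C A.tmp hw pw y
  have e2 := LY_some (Φ := β.Φ) C A.tmp hw pw y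
  have e3 := LY_fp C A.tmp hw pw y (mh_bz hD A) (sp_bz hD A (y, 0))
  have n : ∀ a b, nab I3 D.F.e (Crt72.an β) a (fun z => (2 : ℝ) • fa (w.1 z) b) y =
      (2 : ℝ) • nab I3 D.F.e (aY β.W) a (fun z => fa (w.1 z) b) y := fun a b =>
    nab_csmul _ _ (s b y)
  rw [e] at h1 h2
  simp only [lf, h1, h2]
  refine ext2 (fm_ext fun a => ?_) (Eq.trans ?_ e3.symm)
  · cases a with
    | none =>
      refine Eq.trans ?_ e1.symm
      simp [eA, eP, eG, Crt72.sga, Crt72.sgp, n, Md.q, smul_sum, smul_smul]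
      exact congrArg₂ (· + ·) (sum_congr rfl fun a _ => by module) rfl
    | some c =>
      refine Eq.trans ?_ (e2 c).symm
      simp [eA, eP, eG, Crt72.dga, n, RA, smul_smul]
      module
  · simp [eA, eP, eG, Crt72.dgp, RP]
    rfl

theorem opY (hd : Module.finrank ℝ E3 ≤ 3) : OpY D β := by
  have h := cyO_sz hD A hd
  obtain ⟨C, g⟩ := h.good_sop
  refine ⟨(sop (sl0 (sz D β))).σ, (sop (sl0 (sz D β))).B, C, g, h.cliff,
    fun w => _root_.funext fun y => (lf_eq hD A w y).symm, fun w w' => ?_⟩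
  simp only [lf_eq hD A]
  exact h.sym w w'

theorem rpT (hd : Module.finrank ℝ E3 ≤ 3) {k : ℕ} (hk : 6 ≤ k) :
    ∃ T, RpT D β (YF.z0 D) (k + 1) k T := by
  classical
  have C := cp_bz hD A
  have K := in_bz hD A
  have hS := Sup.of_tame (Cht98.exists_tame D.F (hd.trans (by norm_num))).choose_spec
  have hσ : ∀ a, Sm I3 (sC (bz D β).σ a) := fun a => Iv.sm (Bd.In.σ (F := fun _ => D.Z) K _)
  have hB : Sm I3 fun y => (Bc D.Z (y, 0) : CL (Cf _ (Fin β.m.N)) _) :=
    Iv.sm (Bd.In.Bc (F := fun _ => D.Z) (K := iv D.F.toPre) iv_c)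
  have hb : Sm I3 fun y => (bz D β).β (y, 0) := Iv.sm (Bd.In.β (F := fun _ => D.Z) K)
  have hu : Sm I3 fun y => uz β (y, 0) := sm_slice_fst (sm_uz hD A) 0
  have h1 : Sm I3 (Crt72.pc D β) := fun y =>
    (Idg99.sm_Pm (frm D.F) y).ix (sm_slice_fst C.sg 0 y)
  have h2 : Sm I3 (pv D β) := sm_slice_fst C.ssp 0
  obtain ⟨T1, c1, v1⟩ := exists_nq hS (R := fun y => Crt72.pc D β y ∘L RA D β y)
    (r := Crt72.pc D β) hσ hB hb hu (h1.clm_comp fun y => sa_tp fun a => SA.smul contMDiffAt_const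
      (contMDiffAt_const.clm_comp ((sm_slice_fst C.sm_p2 0 y).clm_comp contMDiffAt_const)))
    (fun y _ => idx_idem (frPr D.F y).idem (pg_pg y) _) (triv Y _) hk
  obtain ⟨T2, c2, v2⟩ := exists_nq hS (R := fun y => pv D β y ∘L RP β y) (r := pv D β) hσ hB hb hu
    (h2.clm_comp ((sm_slice_fst (C.sρ none) 0).clm_comp contMDiff_const).neg)
    (fun y _ => C.ok.sp.idem (y, 0) _) (triv Y _) hk
  let j : Crt72.CC D β (k + 1) →L[ℝ] D.F.H (k + 1) (triv Y (Cf (Option κ) (Fin β.m.N))) :=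
    (D.F.mulH _ _ _ fun _ => eA κ _).coprod (D.F.mulH _ _ _ fun _ => eP κ _)
  refine ⟨fun v => (T1 (j v), T2 (j v)), (c1.comp j.contDiff).prodMk (c2.comp j.contDiff),
    fun v x => ?_⟩
  have sv := sm_ev v.1.2.1 v.2.2.1
  have e : j (Crt72.pt D β (k + 1) v) =
      D.F.toH _ _ ⟨_, mem_triv sv (HasCompactSupport.of_compactSpace _)⟩ := by
    change D.F.mulH _ _ _ _ (D.F.toH _ _ v.1) + D.F.mulH _ _ _ _ (D.F.toH _ _ v.2) = _
    rw [RepT_toH (rep_mulH (Cb_const _) (Maps.triv _)),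
      RepT_toH (rep_mulH (Cb_const _) (Maps.triv _)), ← map_add]
    rfl
  have e' := nq_slc (F := D.F) (bz D β).σ (Bc D.Z) (bz D β).β (hu.add sv) x
  obtain ⟨z1, z2⟩ := z0_eq hD A v.1.2.1 v.2.2.1 x
  simp only [e, v1, v2, ← e']
  exact ⟨congrArg (Crt72.pc D β x) z1.symm, congrArg (pv D β x) z2.symm⟩

omit hD A in
variable (D) in
/-- **LEAF OP3** -/
theorem op3 : Crt72.Op3Stmt D := fun h _ A =>
  ⟨opY h.ok A h.dim.le, fun _ hk => rpT h.ok A h.dim.le (by omega)⟩

end Crest.Agent.X212.Op78
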