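import Crest.Agent.X212.Op78.Slc
import Crest.Agent.X212.Nd18.Defs

/-!
# Row 212 (helper78): the symmetric form `sful` of the gauge fixed linearisation

`sful = T ∘ (row, lin) ∘ S`, forms rescaled by `2`; it has the symbol of `Map77.Bd.full`.  On the
cylinder, at an invariant configuration in temporal gauge, it is `ν (∂_t + L)` with `L` symmetric.
-/

set_option autoImplicit false
set_option linter.unusedSectionVars false
set_option maxHeartbeats 400000
noncomputable section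
open scoped Manifold ContDiff Topology InnerProductSpace
open MeasureTheory Finset Filter

namespace Crest.Agent.X212.Op78
open An An.Pre Sob92 Ell97 Wz78 Cyf70 Map77 Nd18

section gen
variable {E : Type} [NormedAddCommGroup E] [NormedSpace ℝ E] [FiniteDimensional ℝ E]
  [MeasurableSpace E] [BorelSpace E]
  {HM : Type} [TopologicalSpace HM] {I : ModelWithCorners ℝ E HM}
  {M : Type} [TopologicalSpace M] [ChartedSpace HM M] [IsManifold I ∞ M]
  [MeasurableSpace M] {ι κ : Type} [Fintype ι] [Fintype κ] [DecidableEq κ]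

section defs
variable (d : Bd M ι κ) (F : Fr I M ι) (W : ι → M → En κ) (Φ : M → Eu κ)

/-- the part of order zero -/
def zs (x : M) : CL (Cf ι κ) (P2 (HS κ) (Ef ι κ)) :=
  pr2 ((2 : ℝ) • Op.tr (z0 d Φ x)) (sm2 ((2 : ℝ) • ContinuousLinearMap.id ℝ _)
    ((1 / 2 : ℝ) • ContinuousLinearMap.id ℝ _) ∘L zl d Φ x)

/-- the symmetric form of the gauge fixed linearisation -/
def sful : Op M ι (Cf ι κ) (P2 (HS κ) (Ef ι κ)) := addB (d.full F (base W 0)) (zs d Φ)

/-- the linearised equations on functions -/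
def lin0 : (M → Cf ι κ) → M → Ef ι κ :=
  F.op d.σ fun x => Bc F x + (d.β x (base W Φ x) + (d.β x).flip (base W Φ x))

/-- the exterior covariant derivative -/
def dE (α : M → Fm ι (HS κ)) (x : M) (s : ι × ι) : HS κ :=
  nab I F.e (adw W) s.1 (fun y => α y s.2) x - nab I F.e (adw W) s.2 (fun y => α y s.1) x
    - ∑ k, F.c s.1 s.2 k x • α x k

/-- the derivative of the quadratic term -/
def mm (x : M) (φ : Eu κ) (s : ι × ι) : HS κ :=
  hsL (rk1 (Φ x) (d.ρ s.1 x (d.ρ s.2 x φ)) + rk1 φ (d.ρ s.1 x (d.ρ s.2 x (Φ x))))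

/-- Clifford multiplication of `α Φ` -/
def cl (x : M) (α : Fm ι (HS κ)) : Eu κ := ∑ a, d.ρ a x (opL (α a) (Φ x))

end defs

variable {d : Bd M ι κ} {F : Fr I M ι} {Γ : ι → ι → ι → M → ℝ} {W : ι → M → En κ} {Φ : M → Eu κ}
  {x : M} {u : M → Cf ι κ}

theorem f2_lin0 (hu : Sm I u) : f2 _ _ (lin0 d F W Φ u x) =
    dir I F.e d.ρ W (fun y => fp (u y)) x + cl d Φ x (fa (u x)) := by
  have e : ∀ a, dv I (F.e a) (fun y => fp (u y)) x = fp (F.D a u x) := fun a => dv_clm _ (md hu x)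
  simp [lin0, Pre.op, Bd.σ, σE, Bc, BE, Bd.β, f2_βE, dir, Wz78.nab, e, sum_add_distrib, cl, oa_apply,
    add_assoc]

theorem s2_lin0 (hP : F.P = d.P) (hu : Sm I u) (s : ι × ι) : s2 _ _ (lin0 d F W Φ u x) s =
    dE F W (fun y => fa (u y)) x s - mm d Φ x (fp (u x)) s := by
  have e : ∀ a b, dv I (F.e a) (fun y => fa (u y) b) x = fa (F.D a u x) b :=
    fun a b => dv_clm (Map77.pj _ b ∘L fa) (md hu x)
  have e1 : ∀ a b, ∑ c, d.P a c x • fa (F.D c u x) b = fa (F.D a u x) b := fun a b => by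
    rw [← sum_P_D F a u x, hP]; simp
  simp only [lin0, Pre.op, Bd.σ, σE, Bc, BE, Bd.β, map_add, map_sum, s2_pr2, PiLp.add_apply, s2_βE,
    WithLp.ofLp_sum, Finset.sum_apply, ContinuousLinearMap.comp_apply, wd2_apply, tp_apply,
    sum_sub_distrib, e1, e, map_sub, oa_base, fp_base, _root_.neg_apply, add_apply,
    _root_.sum_apply, smul_apply, Map77.pj_apply, ContinuousLinearMap.flip_apply, dE, mm, Wz78.nab,
    adc_apply]
  simp only [oa_apply]
  abel

theorem alg_sful (h : d.OK) : Alg d.P (sful d F W Φ) := (h.alg_full _).addB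

theorem cliff_addB {V V' : Type} [NormedAddCommGroup V] [InnerProductSpace ℝ V]
    [NormedAddCommGroup V'] [InnerProductSpace ℝ V'] [FiniteDimensional ℝ V]
    [FiniteDimensional ℝ V'] {A : Op M ι V V'} (h : A.Cliff F) (B : M → V →L[ℝ] V') :
    (addB A B).Cliff F := h

theorem cliff_sful (h : d.OK) (hP : F.P = d.P) : (sful d F W Φ).Cliff F :=
  cliff_addB (h.cliff_full hP _) _

theorem app_sful : (sful d F W Φ).app F u x =
    (d.full F (base W 0)).app F u x + ps d.g d.pE x (zs d Φ x (u x)) := op_addB _ _ u x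

theorem cC_zero [DecidableEq ι] {a : ι} (h : ∀ b k, Γ a b k x = 0) (hW : W a x = 0) :
    cC F Γ W a x = 0 := by
  have : Idg99.Gm Γ a x = 0 := Matrix.ext h
  ext1 v
  exact ext2 (fm_ext fun s => by simp [Idg99.tA_apply, Idg99.Om, this, hW, adc_apply])
    (by simp [hW])

theorem in_sful {J : Type} {F : J → Fr I M ι} {K : Cls fun j => (F j).toPre} (h : d.In K)
    {W : J → ι → M → En κ} {Φ : J → M → Eu κ} (hc : ∀ a b k, K.mem fun j => (F j).c a b k)
    (hd : ∀ a, K.mem fun j => (F j).dv a) (hW : ∀ a, K.mem fun j => W j a) (hΦ : K.mem Φ) :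
    K.op fun j => sful d (F j) (W j) (Φ j) :=
  have h1 := Cls.clm (i2 (Fm ι (HS κ)) _) hΦ
  (h.full hc hd (Cls.base hW (K.const 0))).addB (Cls.pr2
    (Cls.smul (K.const _) (Cls.clm (trL _ _) (Cls.comp h.pC (Cls.clm l0 h1))))
    (Cls.comp (K.const _) (Cls.comp h.pE (K.add (K.app h.β h1) (K.app (Cls.flip h.β) h1)))))

theorem rp_sful [DecidableEq ι] (C : Cp d F Γ W) (hR : Riem F) :
    Rp F Γ (sful d F W Φ) (cC F Γ W) (cT F Γ W) fun x => (ps d.g d.pE x).comp (zs d Φ x) :=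
  ((C.rp_full 0).addB (zs d Φ)).congr (fun x v _ => by
    rw [zf_zero (hR.dft C.lc · x) rfl, zero_add]; rfl) C.ok.prjC.idem

theorem f2_zs (h : d.OK) {v : Cf ι κ} (hv : d.pC x v = v) :
    f2 _ _ (zs d Φ x v) = (2 : ℝ) • hsL (rk1 (fp v) (Φ x)) := by
  have : Op.tr (z0 d Φ x) v = hsL (rk1 (fp v) (Φ x)) := ext_inner_left ℝ fun ξ => by
    rw [inner_tr, inner2, fa_z0, fp_z0, inner_zero_left, zero_add, h.sp.symm, sp_of hv, inner_rk1]
  simp [zs, this]

theorem fs_zs (v : Cf ι κ) : f2 _ _ (s2 _ _ (zs d Φ x v)) = (2 : ℝ) • d.sm x (cl d Φ x (fa v)) := by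
  simp only [zs, s2_pr2, ContinuousLinearMap.comp_apply, f2_sm2, f2_zl, smul_apply,
    ContinuousLinearMap.id_apply, cl]

theorem ss_zs (v : Cf ι κ) : s2 _ _ (s2 _ _ (zs d Φ x v)) =
    -(1 / 2 : ℝ) • d.p2 x (WithLp.toLp 2 (mm d Φ x (fp v))) := by
  simp only [zs, s2_pr2, ContinuousLinearMap.comp_apply, s2_sm2, s2_zl, smul_apply,
    ContinuousLinearMap.id_apply, smul_neg, neg_smul]
  rfl

section app
variable (C : Cp d F Γ W) (hu : Sm I u) (pu : ∀ y, d.pC y (u y) = u y)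
include C hu pu

theorem s2_full : s2 _ _ ((d.full F (base W 0)).app F u x) = d.pE x (lin0 d F W 0 u x) := by
  rw [Op.app, Bd.full, op_pair, map_add, s2_i1, s2_i2, zero_add]
  exact op_cut F.toPre C.sm_pC hu pu x

/-- the Coulomb row -/
theorem sful_row : f2 _ _ ((sful d F W Φ).app F u x) =
    ∑ a, (nab I F.e (adw W) a (fun y => fa (u y) a) x + F.dv a x • fa (u x) a)
      + (2 : ℝ) • d.g x (hsL (rk1 (fp (u x)) (Φ x))) := by
  have h1 := C.lc.div_sum (frm F) (g := fun k x => ∑ a, Γ a k a x) (x := x) (fun _ => rfl)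
    (T := fun k => fa (u x) k) (C.P_fa (pu x))
  have h2 : rk1 (fp (u x)) (0 : Eu κ) = 0 := by ext; simp
  rw [app_sful, map_add, C.full_row (hu x) pu 0, f2_ps]
  simp only [f2_zs C.ok (pu x), cov, dft, Pi.zero_apply, h2, map_zero, sum_sub_distrib, h1, sub_smul,
    map_smul, sum_add_distrib]
  abel

/-- the Dirac row -/
theorem sful_dir : f2 _ _ (s2 _ _ ((sful d F W Φ).app F u x)) =
    d.sm x (dir I F.e d.ρ W (fun y => fp (u y)) x + (2 : ℝ) • cl d Φ x (fa (u x))) := by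
  rw [app_sful, map_add, map_add, s2_full C hu pu, s2_ps]
  simp [f2_lin0 hu, fs_zs, C.ok.sm.idem, cl]

/-- the curvature row -/
theorem sful_crv : s2 _ _ (s2 _ _ ((sful d F W Φ).app F u x)) = d.p2 x (WithLp.toLp 2 fun s =>
    dE F W (fun y => fa (u y)) x s - (1 / 2 : ℝ) • mm d Φ x (fp (u x)) s) := by
  rw [app_sful, map_add, map_add, s2_full C hu pu, s2_ps, s2_ps, s2_ps, ss_zs, map_smul,
    C.ok.prj2.idem, ← map_smul, ← map_add]
  refine congrArg (d.p2 x) (fm_ext fun s => ?_)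
  have h2 : mm d 0 x (fp (u x)) s = 0 := by
    rw [mm, ← (hsL (κ := κ)).map_zero]; congr 1; ext; simp
  simp only [PiLp.add_apply, s2_lin0 C.P hu, h2, neg_zero, add_zero, PiLp.smul_apply, neg_smul,
    sub_eq_add_neg, PiLp.neg_apply]

end app

variable (d) in
/-- the algebra of `g` on positive spinors -/
structure Mh : Prop where
  gp : ∀ x ξ v, d.g x ξ = ξ → d.sp x v = v → d.sp x (opL ξ v) = opL ξ v
  mu : ∀ x ξ (Φ : M → Eu κ) φ a c, d.g x ξ = ξ → d.sp x (Φ x) = Φ x →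
    ⟪ξ, d.p2 x (WithLp.toLp 2 (mm d Φ x φ)) (a, c)⟫_ℝ =
      2 * (d.P a c x * ⟪opL ξ (Φ x), φ⟫_ℝ - ⟪d.ρ c x (opL ξ (Φ x)), d.ρ a x φ⟫_ℝ)

theorem g_fa (h : d.OK) {w : Cf ι κ} (hw : d.pC x w = w) (a : ι) : d.g x (fa w a) = fa w a := by
  rw [← p1_of hw]; exact h.g_p1 x _ a

/-- the part of order zero is symmetric for every symbol -/
theorem inner_zs (h : d.OK) (hm : Mh d) (hΦ : d.sp x (Φ x) = Φ x) (a : ι) {v w : Cf ι κ}
    (hv : d.pC x v = v) (hw : d.pC x w = w) :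
    ⟪(ps d.g d.pE x).comp (zs d Φ x) v, (sful d F W Φ).σ a x w⟫_ℝ =
      2 * (⟪cl d Φ x (fa v), d.ρ a x (fp w)⟫_ℝ + ⟪cl d Φ x (fa w), d.ρ a x (fp v)⟫_ℝ) := by
  have e1 := fun c => hm.mu x _ Φ (fp v) a c (g_fa h hw c) hΦ
  have e2 : ∑ c, d.P a c x * ⟪opL (fa w c) (Φ x), fp v⟫_ℝ = ⟪opL (fa w a) (Φ x), fp v⟫_ℝ := by
    have := h.P_p1 x (fa w) a
    rw [p1_of hw] at this
    simp only [← this, map_sum, map_smul, _root_.sum_apply, smul_apply, sum_inner,
      real_inner_smul_left]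
  have e3 := inner_wd2 (h.vol x).pr (h.sd_p2 x (WithLp.toLp 2 (mm d Φ x (fp v)))) a (fa w)
  have e5 := h.mp a x (fp w)
  have e6 : ps d.g d.pE x ((sful d F W Φ).σ a x w) = (d.full F (base W 0)).σ a x w :=
    (h.alg_full _).qσ a x w
  rw [sp_of hw] at e5
  rw [ContinuousLinearMap.comp_apply, (h.g.ps h.prjE).symm, e6, inner2, inner2, h.full_σ1,
    h.full_σ2, Bd.OK.full_σ3, f2_zs h hv, fs_zs, ss_zs, p1_of hw, sp_of hw, real_inner_smul_left,
    real_inner_smul_left, real_inner_smul_left, h.sm.symm, e5, ← h.prj2.symm, h.prj2.idem,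
    real_inner_comm (wd2 _ _ a _), e3, real_inner_comm (fa w a), inner_rk1]
  simp only [e1, ← mul_sum, sum_sub_distrib, e2, cl, sum_inner]
  ring

variable {lam : Type} [Fintype lam] {m : Md M ι lam} {B : Base M ι lam}

theorem p2_mm (φ : m.V) {Φ : M → m.V} : m.p2 B x (WithLp.toLp 2 (mm (bdOf B m) Φ x φ)) =
    m.mu B x (Φ x) φ + m.mu B x φ (Φ x) :=
  fm_ext fun s => by
    simp only [Md.p2, Md.mu, Md.q, Wz78.idx_apply, mm, map_add, PiLp.add_apply, pg_pg, smul_add,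
      sum_add_distrib, bdOf]

theorem mh_of (hB : B.OK I) (H : m.OK I B) : Mh (bdOf B m) := by
  have k2 : ∀ x ξ v, m.pg x ξ = ξ → m.pp B x v = v → m.pp B x (opL ξ v) = opL ξ v :=
    fun x ξ v h hv => by
      rw [← mul_apply_eq_comp, ← g_pp H (h ▸ pg_mem x ξ), mul_apply_eq_comp, hv]
  refine ⟨k2, fun x ξ Φ φ a c h hΦ => ?_⟩
  have gm : ξ ∈ m.gS x := h ▸ pg_mem x ξ
  have k1 : opL ξ (rp m B x (a, c) (Φ x)) = rp m B x (a, c) (opL ξ (Φ x)) := by
    rw [← mul_apply_eq_comp, g_rp H gm, mul_apply_eq_comp]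
  have k3 : m.p x (opL ξ (Φ x)) = opL ξ (Φ x) := by rw [← mul_apply_eq_comp, g_p gm]
  have k4 : rp m B x (a, c) (opL ξ (Φ x)) =
      m.ρ a x (m.ρ c x (opL ξ (Φ x))) + B.P a c x • opL ξ (Φ x) := by
    simp only [rp, mul_apply_eq_comp, k2 x ξ _ h hΦ, rb_eq H, add_apply, smul_apply, k3]
  change ⟪ξ, m.p2 B x _ (a, c)⟫_ℝ = 2 * (B.P a c x * _ - ⟪m.ρ c x _, m.ρ a x φ⟫_ℝ)
  rw [p2_mm, PiLp.add_apply, inner_add_right, mu_apply hB H, mu_apply hB H, inner_q' gm,
    inner_q' gm, g_skw gm, rp_skw hB H, neg_neg, k1, real_inner_comm _ φ, k4, inner_add_left, H.ρsk,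
    real_inner_smul_left]
  ring

variable (d F W Φ) in
/-- the curvature equation -/
def eCd (x : M) : Fm (ι × ι) (HS κ) := d.p2 x (s2 _ _ (d.N F (base W Φ) x))

variable (d F W Φ) in
/-- the Dirac equation -/
def eDd (x : M) : Eu κ := f2 _ _ (d.N F (base W Φ) x)

theorem sm_base (hW : ∀ a, Sm I (W a)) (hΦ : Sm I Φ) : Sm I (base W Φ) := by
  have : base W Φ = fun x => ∑ a, (i1 _ _ ∘L Map77.ij _ a ∘L hsL) (W a x) + i2 _ _ (Φ x) :=
    _root_.funext fun x => ext2 (fm_ext fun a => by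
      simp only [fa_base, map_add, map_sum, ContinuousLinearMap.comp_apply, f2_i1, f2_i2, add_zero,
        Map77.sum_ij]) (by simp)
  rw [this]
  exact fun x => (SA.sum _ fun a _ => SA.clm _ (hW a x)).add (SA.clm _ (hΦ x))

section cfg
variable {r n : ℕ} {c : Cfg M ι lam r} {G : Geo I M ι lam} {τ : Pt M ι lam r n}
  (hW : ∀ a, Sm I (c.W a)) (hΦ : Sm I c.Φ)
include hW hΦ

theorem eC_eq (hP : G.F.P = B.P) (x : M) :
    c.eC B G τ x = eCd (bdOf B c.m) G.F c.W c.Φ x - τ.C c x := by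
  have e := Bd.s2_N (d := bdOf B c.m) hP _ (sm_base hW hΦ) x
  simp only [oa_base, fp_base] at e
  refine congrArg (· - _) (fm_ext fun s => ?_)
  change _ = c.m.p2 B x _ s
  simp only [Md.p2, Md.mu, Md.Fg, Md.q, e, PiLp.sub_apply, Wz78.idx_apply, pg_pg, map_sub, smul_sub,
    sum_sub_distrib]
  rfl

theorem eD_eq (x : M) : c.eD G τ x = eDd (bdOf B c.m) G.F c.W c.Φ x - τ.D c x := by
  rw [eDd, Bd.f2_N _ (sm_base hW hΦ)]
  simp only [oa_base, fp_base]
  rfl

end cfg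

end gen

variable {E3 : Type} [NormedAddCommGroup E3] [NormedSpace ℝ E3] [FiniteDimensional ℝ E3]
  [MeasurableSpace E3] [BorelSpace E3]
  {H3 : Type} [TopologicalSpace H3] {I3 : ModelWithCorners ℝ E3 H3} [I3.Boundaryless]
  {Y : Type} [TopologicalSpace Y] [ChartedSpace H3 Y] [IsManifold I3 ∞ Y] [T2Space Y]
  [MeasurableSpace Y] [BorelSpace Y] [SecondCountableTopology Y] [CompactSpace Y]
  {κ : Type} [Fintype κ] {lam : Type} [Fintype lam] (D : YD I3 Y κ lam) (β : YC Y κ lam)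

/-- the bundles on the cylinder -/
def bz : Bd (Y × ℝ) (Option κ) (Fin β.m.N) := bdOf D.B (cy β).m

/-- the symmetric operator on the cylinder -/
def sz : Op (Y × ℝ) (Option κ) (Cf (Option κ) (Fin β.m.N))
    (P2 β.m.A (Ef (Option κ) (Fin β.m.N))) :=
  sful (bz D β) D.Z (fun a x => β.W a x.1) fun x => β.Φ x.1

variable {D β} (hD : D.OK) (A : D.Adm β)
include hD A

theorem cp_bz : Cp (bz D β) D.Z D.Z.Gam fun a x => β.W a x.1 := cp_of hD.B hD.G A.adm.ok A.adm.conn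

omit hD A in
theorem bz_inv (x : Y × ℝ) : (bz D β).Px x = (bz D β).Px (x.1, 0) ∧ (bz D β).g x = β.m.pg x.1 ∧
    (bz D β).sp x = (bz D β).sp (x.1, 0) ∧ (bz D β).sm x = (bz D β).sm (x.1, 0) :=
  ⟨_root_.funext fun a => _root_.funext fun b => (congrFun (iv_P (F := D.F) a b).eq x).symm, rfl,
    rfl, rfl⟩

theorem in_bz : (bz D β).In (iv D.F.toPre) := by
  have C := cp_bz hD A
  refine ⟨iv_P (F := D.F), fun a => Iv.of (C.sρ a) fun _ => rfl, Iv.of C.sg fun x => ?_,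
    Iv.of C.sm_p1 fun x => ?_, Iv.of C.sm_p2 fun x => ?_, Iv.of C.ssp fun x => (bz_inv x).2.2.1,
    Iv.of C.ssm fun x => (bz_inv x).2.2.2⟩
  · exact (bz_inv x).2.1.trans (bz_inv (x.1, 0)).2.1.symm
  · exact (C.ok.p1 x).trans ((congrArg₂ idx (bz_inv x).1
      ((bz_inv x).2.1.trans (bz_inv (x.1, 0)).2.1.symm)).trans (C.ok.p1 _).symm)
  · exact (C.ok.p2 x).trans ((congrArg₂ idx (congrArg₂ sdm (bz_inv x).1 rfl)
      ((bz_inv x).2.1.trans (bz_inv (x.1, 0)).2.1.symm)).trans (C.ok.p2 _).symm)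

theorem in_sz : (iv D.F.toPre).op fun _ => sz D β :=
  in_sful (F := fun _ => D.Z) (in_bz hD A) iv_c iv_dv
    (fun a => Iv.of ((cp_bz hD A).con.sm a) fun _ => rfl) (Iv.of A.adm.sm fun _ => rfl)

/-- the operator is invariant -/
theorem cyo_sz : cyo (sl0 (sz D β)) = sz D β := cyo_sl0 (in_sz hD A)

theorem mh_bz : Mh (bz D β) := mh_of hD.B A.adm.ok

theorem sp_bz (x : Y × ℝ) : (bz D β).sp x (β.Φ x.1) = β.Φ x.1 := A.adm.pos x

/-- **SYMOP** -/
theorem cyO_sz (hd : Module.finrank ℝ E3 ≤ 3) : CyO D.F (sl0 (sz D β)) := by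
  classical
  have C := cp_bz hD A
  have hR : Riem D.Z := riem_of_vol hD.G.vol
  exact cyO_of hd (in_sz hD A) (C.P ▸ alg_sful C.ok) (cliff_sful C.ok C.P) hR (rp_sful C hR)
    C.skew_cC C.skew_cT (fun x => cC_zero (fun b k => gam_cyl none b k x) (A.tmp _))
    fun x v w hv hw => (inner_zs C.ok (mh_bz hD A) (sp_bz hD A x) none hv hw).trans
      (((real_inner_comm _ _).trans (inner_zs C.ok (mh_bz hD A) (sp_bz hD A x) none hw hv)).trans
        (by rw [add_comm])).symm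

end Crest.Agent.X212.Op78
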