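import Crest.Agent.X212.Wz78.Boch
import Crest.Agent.X212.Cyf70.Op

/-!
# Row 212 (helper78): symmetric operators, quadratic operators, slices of operators on `Y × ℝ`
-/

set_option autoImplicit false
set_option linter.unusedSectionVars false
set_option maxHeartbeats 400000
noncomputable section
open scoped Manifold ContDiff Topology InnerProductSpace
open MeasureTheory Finset Filter

namespace Crest.Agent.X212.Op78
open An An.Pre Sob92 Ell97 Wz78 Cyf70
open Map77 (Cls Alg Nq post post_apply)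

section gen
variable {E : Type} [NormedAddCommGroup E] [NormedSpace ℝ E] [FiniteDimensional ℝ E]
  [MeasurableSpace E] [BorelSpace E]
  {HM : Type} [TopologicalSpace HM] {I : ModelWithCorners ℝ E HM}
  {M : Type} [TopologicalSpace M] [ChartedSpace HM M] [IsManifold I ∞ M]
  [MeasurableSpace M] [T2Space M] [BorelSpace M] {ι : Type} [Fintype ι]
  {U V W : Type} [NormedAddCommGroup U] [InnerProductSpace ℝ U]
  [NormedAddCommGroup V] [InnerProductSpace ℝ V] [NormedAddCommGroup W] [InnerProductSpace ℝ W]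
  {F : Fr I M ι} {Γ : ι → ι → ι → M → ℝ} {C : ι → M → V →L[ℝ] V} {C' : ι → M → W →L[ℝ] W}
  {σ : ι → M → V →L[ℝ] W} {x : M}

/-- Green's formula, pointwise -/
theorem inner_dop (S : Sy I F.e F.P Γ C C' σ) (L : LC I F.e F.P F.c Γ) (hR : Riem F)
    (hC' : ∀ a, Skew (C' a x)) {u : M → V} {w : M → W} (hu : SA I u x) (hw : SA I w x) :
    ⟪dop I F.e σ C u x, w x⟫_ℝ = dvg I F.e F.dv (fun a y => ⟪σ a y (u y), w y⟫_ℝ) x
      - ∑ a, ⟪σ a x (u x), nab I F.e C' a w x⟫_ℝ := by
  have h1 := L.div_sum (frm F) (hR.hg L x) (T := fun k => ⟪σ k x (u x), w x⟫_ℝ) fun k => by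
    simp only [← S.proj' k x (u x), sum_inner, real_inner_smul_left, smul_eq_mul]
  simp only [smul_eq_mul] at h1
  simp only [dvg, fun a => dv_inner (e := F.e) a (hC' a) ((S.sm a x).app hu) hw,
    fun a => S.nab a a hu, dop, inner_add_left, sum_inner, real_inner_smul_left, sum_add_distrib]
  linarith

/-- an operator with skew parallel symbol and symmetric term of order zero is symmetric -/
theorem rp_sym {A : Op M ι V V} {Z : M → V →L[ℝ] V} (h : Rp F Γ A C C Z)
    (L : LC I F.e F.P F.c Γ) (hR : Riem F) (hC : ∀ a x, Skew (C a x))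
    (hσ : ∀ a x, Skew (A.σ a x)) (hB : Sm I A.B)
    (hZ : ∀ x v w, A.p x v = v → A.p x w = w → ⟪Z x v, w⟫_ℝ = ⟪v, Z x w⟫_ℝ) (u w : Sec I A.p) :
    F.ip 0 (A.app F u.1) w.1 = F.ip 0 u.1 (A.app F w.1) := by
  have s1 : ∀ a, Sm I fun y => ⟪A.σ a y (u.1 y), w.1 y⟫_ℝ := fun a y =>
    SA.inner ((h.sy.sm a y).app (u.2.1 y)) (w.2.1 y)
  have k1 : ∀ a, HasCompactSupport fun y => ⟪A.σ a y (u.1 y), w.1 y⟫_ℝ := fun a =>
    hcs_inner _ w.2.2.1
  have i1 := F.integrable_inner u.2.1.continuous u.2.2.1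
    (sm_op (F := F.toPre) (fun a => h.sy.sm a) hB w.2.1).continuous
  have e := integral_add i1 (integ_dvg (F := F) s1 k1)
  rw [integral_dvg s1 k1, add_zero] at e
  refine Eq.trans (integral_congr_ae (Eventually.of_forall fun x => ?_)) e
  have e1 := h.app (u := u.1) (u.2.2.2 x)
  have e2 := h.app (u := w.1) (w.2.2.2 x)
  change ⟪A.app F u.1 x, w.1 x⟫_ℝ = ⟪u.1 x, A.app F w.1 x⟫_ℝ + _
  rw [e1, e2, inner_add_left, inner_add_right, inner_dop h.sy L hR (hC · x) (u.2.1 x) (w.2.1 x),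
    hZ x _ _ (u.2.2.2 x) (w.2.2.2 x)]
  simp only [dop, inner_sum, hσ _ x (u.1 x), sum_neg_distrib]
  ring

theorem nq_add {F : Pre I M ι} (B : M → V →L[ℝ] W) (β : M → V →L[ℝ] V →L[ℝ] W) {u v : M → V}
    (hu : Sm I u) (hv : Sm I v) (x : M) : Nq F σ B β (u + v) x = Nq F σ B β u x +
      F.op σ (fun x => B x + (β x (u x) + (β x).flip (u x))) v x + β x (v x) (v x) := by
  simp only [Nq, Pre.op, F.D_add hu hv, map_add, sum_add_distrib, add_apply, Pi.add_apply,
    ContinuousLinearMap.flip_apply]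
  abel

theorem hasDerivAt_nq {F : Pre I M ι} (B : M → V →L[ℝ] W) (β : M → V →L[ℝ] V →L[ℝ] W)
    {u v : M → V} (hu : Sm I u) (hv : Sm I v) (x : M) :
    HasDerivAt (fun ε : ℝ => Nq F σ B β (u + ε • v) x)
      (F.op σ (fun x => B x + (β x (u x) + (β x).flip (u x))) v x) 0 := by
  have e : ∀ ε : ℝ, Nq F σ B β (u + ε • v) x = Nq F σ B β u x +
      ε • F.op σ (fun x => B x + (β x (u x) + (β x).flip (u x))) v x +
        (ε * ε) • β x (v x) (v x) := fun ε => by
    rw [nq_add B β hu (v := ε • v) ((contMDiff_const (I' := 𝓘(ℝ, ℝ)) (c := ε)).smul hv)]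
    simp only [Pre.op, F.D_smul hv, Pi.smul_apply, map_smul, smul_add, smul_sum, smul_apply,
      smul_smul]
  simp only [e]
  simpa using ((hasDerivAt_const (0 : ℝ) (Nq F σ B β u x)).fun_add
    ((hasDerivAt_id (0 : ℝ)).smul_const
      (F.op σ (fun x => B x + (β x (u x) + (β x).flip (u x))) v x))).fun_add
    (((hasDerivAt_id (0 : ℝ)).mul (hasDerivAt_id 0)).smul_const (β x (v x) (v x)))

/-- a quadratic first order operator is smooth on Sobolev spaces -/
theorem exists_nq [I.Boundaryless] [SecondCountableTopology M] [CompactSpace M] [CompleteSpace V]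
    [CompleteSpace U] {S : ℝ} (hS : Sup F.toPre S) {B : M → V →L[ℝ] W}
    {β : M → V →L[ℝ] V →L[ℝ] W} {u : M → V} {R : M → W →L[ℝ] U} {r : M → U →L[ℝ] U}
    (hσ : ∀ a, Sm I (σ a)) (hB : Sm I B) (hβ : Sm I β) (hu : Sm I u) (hR : Sm I R)
    (hr : ∀ x w, r x (R x w) = R x w) (p : M → V →L[ℝ] V) {k : ℕ} (hk : 6 ≤ k) :
    ∃ T : F.H (k + 1) p → F.H k r, ContDiff ℝ ∞ T ∧ ∀ (s : Sec I p) (x : M),
      F.val k r (T (F.toH _ p s)) x = R x (Nq F.toPre σ B β (u + s.1) x) := by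
  have h1 : Sm I fun x => R x (Nq F.toPre σ B β u x) :=
    hR.clm_apply ((sm_op hσ hB hu).add ((hβ.clm_apply hu).clm_apply hu))
  have h2 : Sm I fun x => (R x).comp (B x + (β x (u x) + (β x).flip (u x))) :=
    hR.clm_comp (hB.add ((hβ.clm_apply hu).add ((((ContinuousLinearMap.flipₗᵢ ℝ V V
      W).toContinuousLinearEquiv.toContinuousLinearMap.contMDiff).comp hβ).clm_apply hu)))
  have h3 : Sm I fun x => post (R x) (β x) :=
    ((ContinuousLinearMap.compL ℝ V W U).contMDiff.comp hR).clm_comp hβ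
  let b := F.bilH (k + 1) (k + 1) p p r (k + 1) fun x => post (R x) (β x)
  refine ⟨fun h => F.toH k r ⟨_, h1, HasCompactSupport.of_compactSpace _, fun x => hr x _⟩ +
    F.opH k p r (fun a x => (R x).comp (σ a x))
      (fun x => (R x).comp (B x + (β x (u x) + (β x).flip (u x)))) h + F.incl (k + 1) k r (b h h),
    (contDiff_const.add (ContinuousLinearMap.contDiff _)).add
      ((ContinuousLinearMap.contDiff _).comp (b.contDiff.clm_apply contDiff_id)), fun s x => ?_⟩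
  rw [val_add, val_add, Pi.add_apply, Pi.add_apply, val_toH hS (by omega),
    val_opH hS (by omega) (fun a => Cb_of_compact (hR.clm_comp (hσ a))) (Cb_of_compact h2)
      (fun a x v => hr x _) (Maps.of_left fun x v => hr x _), val_incl hS (by omega) k.le_succ,
    val_bilH hS (Lev.self (by omega)) (by omega) (Cb_of_compact h3)
      (Maps₂.of_left fun x v w => hr x _), val_toH hS (by omega), nq_add B β hu s.2.1]
  simp only [Pre.op, map_add, map_sum, ContinuousLinearMap.comp_apply, post_apply]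

end gen

variable {E : Type} [NormedAddCommGroup E] [NormedSpace ℝ E] [FiniteDimensional ℝ E]
  [MeasurableSpace E] [BorelSpace E]
  {HM : Type} [TopologicalSpace HM] {I : ModelWithCorners ℝ E HM} [I.Boundaryless]
  {Y : Type} [TopologicalSpace Y] [ChartedSpace HM Y] [IsManifold I ∞ Y] [T2Space Y]
  [MeasurableSpace Y] [BorelSpace Y] [SecondCountableTopology Y] [CompactSpace Y]
  {ι : Type} [Fintype ι] {N : Type} [NormedAddCommGroup N] [NormedSpace ℝ N]
  {V W : Type} [NormedAddCommGroup V] [InnerProductSpace ℝ V] [NormedAddCommGroup W]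
  [InnerProductSpace ℝ W]

variable (I) in
/-- smooth and independent of `t` -/
def Iv (f : Y × ℝ → N) : Prop := ∃ g, Sm I g ∧ f = fun x => g x.1

theorem Iv.of {f : Y × ℝ → N} (h : Sm (IC I) f) (e : ∀ x, f x = f (x.1, 0)) : Iv I f :=
  ⟨_, sm_slice_fst h 0, _root_.funext e⟩

theorem Iv.sm {f : Y × ℝ → N} (h : Iv I f) : Sm I fun y => f (y, 0) := by
  obtain ⟨g, h, rfl⟩ := h; exact h

theorem Iv.eq {f : Y × ℝ → N} (h : Iv I f) : (fun x : Y × ℝ => f (x.1, 0)) = f := by
  obtain ⟨g, -, rfl⟩ := h; rfl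

theorem Iv.cb (F : Pre I Y ι) {f : Y × ℝ → N} (h : Iv I f) : (cylP F).Cb f := by
  obtain ⟨g, h, rfl⟩ := h; exact Cht98.Cb_fst F (Cb_of_compact h)

/-- the class of smooth functions independent of `t` -/
def iv (F : Pre I Y ι) : Cls fun _ : Unit => cylP F where
  mem f := Iv I (f ())
  const c := ⟨fun _ => c, contMDiff_const, rfl⟩
  add := fun ⟨_, h, e⟩ ⟨_, h', e'⟩ => ⟨_, h.add h', by simp only [e, e']; rfl⟩
  app := fun ⟨_, h, e⟩ ⟨_, h', e'⟩ => ⟨_, h.clm_apply h', by simp only [e, e']⟩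
  D := fun ⟨_, h, e⟩ a => by
    cases a with
    | none => exact ⟨0, contMDiff_const, by simp only [e]; exact D_none_fst F h⟩
    | some a => exact ⟨_, F.sm_D h a, by simp only [e]; exact D_some_fst F h a⟩

variable {F : Fr I Y ι}

theorem iv_P (a b : Option ι) : Iv I ((cyl F).P a b) :=
  .of ((cyl F).P_sm a b) fun _ => by cases a <;> cases b <;> rfl

theorem iv_c (a b k : Option ι) : Iv I ((cyl F).c a b k) :=
  .of ((cyl F).c_sm a b k) fun _ => by cases a <;> cases b <;> cases k <;> rfl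

theorem iv_dv (a : Option ι) : Iv I ((cyl F).dv a) :=
  .of ((cyl F).dv_sm a) fun _ => by cases a <;> rfl

theorem D_P (a b k : Option ι) (x : Y × ℝ) : (cyl F).D a ((cyl F).P b k) x =
    match a, b, k with
    | some a, some b, some k => F.D a (F.P b k) x.1
    | _, _, _ => 0 := by
  have h0 : ∀ a (r : ℝ), (cyl F).D a (fun _ => r) x = 0 := fun a r => congrFun (dv_const r) x
  cases b <;> cases k
  any_goals (cases a <;> exact h0 _ _)
  cases a
  exacts [congrFun (D_none_fst F.toPre (F.P_sm _ _)) x, congrFun (D_some_fst F.toPre (F.P_sm _ _) _) x]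

theorem gam_cyl (a b k : Option ι) (x : Y × ℝ) : (cyl F).Gam a b k x =
    match a, b, k with
    | some a, some b, some k => F.Gam a b k x.1
    | _, _, _ => 0 := by
  simp only [Fr.Gam, D_P]
  cases a <;> cases b <;> cases k <;> simp [cyl, cc]

theorem riem_slc (h : Riem (cyl F)) : Riem F := fun k y => by
  simpa [Fintype.sum_option, cyl, cc, cP, cd] using h (some k) (y, 0)

/-- the slice of a connection -/
abbrev sC (C : Option ι → Y × ℝ → N) : ι → Y → N := fun a y => C (some a) (y, 0)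

theorem nab_slc {C : Option ι → Y × ℝ → V →L[ℝ] V} {u : Y × ℝ → V} (hu : Sm (IC I) u) (a : ι)
    (y : Y) : nab (IC I) (cyl F).e C (some a) u (y, 0) =
      nab I F.e (sC C) a (fun z => u (z, 0)) y :=
  congrArg (· + _) (D_some F.toPre hu a (y, 0))

theorem nabH_slc {C : Option ι → Y × ℝ → V →L[ℝ] V} {C' : Option ι → Y × ℝ → W →L[ℝ] W}
    {T : Y × ℝ → V →L[ℝ] W} (hT : Sm (IC I) T) (a : ι) (y : Y) :
    nabH (IC I) (cyl F).e C C' (some a) T (y, 0) =
      nabH I F.e (sC C) (sC C') a (fun z => T (z, 0)) y :=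
  congrArg (· + _) (D_some F.toPre hT a (y, 0))

theorem sy_slc {C : Option ι → Y × ℝ → V →L[ℝ] V} {C' : Option ι → Y × ℝ → W →L[ℝ] W}
    {σ : Option ι → Y × ℝ → V →L[ℝ] W} (S : Sy (IC I) (cyl F).e (cyl F).P (cyl F).Gam C C' σ) :
    Sy I F.e F.P F.Gam (sC C) (sC C') (sC σ) ∧
      ∀ a y, nabH I F.e (sC C) (sC C') a (fun z => σ none (z, 0)) y = 0 := by
  refine ⟨⟨fun a => sm_slice_fst (S.sm (some a)) 0, fun a y => ?_, fun a b y => ?_⟩, fun a y => ?_⟩
  · simpa [Fintype.sum_option, cyl, cP] using S.proj (some a) (y, 0)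
  · rw [← nabH_slc (S.sm (some b)), S.par]
    simp [Fintype.sum_option, gam_cyl]
  · rw [← nabH_slc (S.sm none), S.par]
    simp [gam_cyl]

variable [FiniteDimensional ℝ V] [FiniteDimensional ℝ W]

/-- the coefficients at `t = 0` -/
def sl0 (A : Op (Y × ℝ) (Option ι) V W) : Op Y (Option ι) V W :=
  ⟨fun y => A.p (y, 0), fun y => A.q (y, 0), fun a y => A.σ a (y, 0), fun y => A.B (y, 0)⟩

variable {A : Op (Y × ℝ) (Option ι) V W}

theorem cyo_sl0 (h : (iv F.toPre).op fun _ => A) : cyo (sl0 A) = A := by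
  obtain ⟨p, q, σ, B⟩ := A
  exact congr(Op.mk $(Iv.eq h.p) $(Iv.eq h.q) $(_root_.funext fun a => Iv.eq (h.σ a)) $(Iv.eq h.B))

/-- the operator on the cross-section is `ν⁻¹ A` on invariant sections -/
theorem app_sop (A : Op (Y × ℝ) (Option ι) V W) {w : Y → V} (hw : Sm I w) (y : Y) :
    (sop (sl0 A)).app F w y = Op.tr (A.σ none (y, 0)) (A.app (cyl F) (fun x => w x.1) (y, 0)) := by
  have e1 := congrFun (D_none_fst F.toPre hw) (y, 0)
  have e2 := fun a => congrFun (D_some_fst F.toPre hw a) (y, 0)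
  simp only [Op.app, Pre.op, Fintype.sum_option, cyl, e1, e2, map_add, map_sum, Pi.zero_apply,
    map_zero, zero_add]
  rfl

theorem rp_sop {C : Option ι → Y × ℝ → V →L[ℝ] V} {C' : Option ι → Y × ℝ → W →L[ℝ] W}
    {Z : Y × ℝ → V →L[ℝ] W} (R : Rp (cyl F) (cyl F).Gam A C C' Z) (hC : ∀ a x, Skew (C a x))
    (hC' : ∀ a x, Skew (C' a x)) (h0 : ∀ x, C none x = 0) :
    Rp F F.Gam (sop (sl0 A)) (sC C) (sC C) fun y => nu (sl0 A) y ∘L Z (y, 0) where
  sy := (sy_slc R.sy).1.lcomp (sm_slice_fst ((R.sy.tr hC hC').sm none) 0)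
    (sy_slc (R.sy.tr hC hC')).2
  B y v := by
    have := congrArg (nu (sl0 A) y) (R.B (y, 0) v)
    simp only [Fintype.sum_option, h0, zero_apply, map_zero, zero_add, map_add, map_sum] at this
    exact this

/-- **invariant operators with parallel symbol** -/
theorem cyO_of (hd : Module.finrank ℝ E ≤ 3) (h : (iv F.toPre).op fun _ => A)
    (al : Alg (cyl F).P A) (cl : A.Cliff (cyl F)) (hR : Riem (cyl F))
    {C : Option ι → Y × ℝ → V →L[ℝ] V} {C' : Option ι → Y × ℝ → W →L[ℝ] W}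
    {Z : Y × ℝ → V →L[ℝ] W} (R : Rp (cyl F) (cyl F).Gam A C C' Z) (hC : ∀ a x, Skew (C a x))
    (hC' : ∀ a x, Skew (C' a x)) (h0 : ∀ x, C none x = 0)
    (hZ : ∀ x v w, A.p x v = v → A.p x w = w →
      ⟪Z x v, A.σ none x w⟫_ℝ = ⟪A.σ none x v, Z x w⟫_ℝ) : CyO F (sl0 A) := by
  refine ⟨hd, ?_, ?_, rp_sym (rp_sop R hC hC' h0) (lc_gam F) (riem_slc hR) (fun a y => hC _ _)
    (fun a y v w => ?_) (((trL V W).contMDiff.comp (Iv.sm (h.σ none))).clm_comp (Iv.sm h.B))
    fun y v w hv hw => ?_⟩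
  · rw [cyo_sl0 h]
    exact good_of_cb (Iv.cb _ h.p) (Iv.cb _ h.q) (fun a => Iv.cb _ (h.σ a)) (Iv.cb _ h.B) al.p.idem
      al.p.symm al.q.idem al.q.symm al.σp al.qσ al.qB al.Pσ
  · rwa [cyo_sl0 h]
  · have := cl.1 (some a) none (y, 0) v w
    change _ + _ = 2 * 0 * _ at this
    change ⟪nu (sl0 A) y (A.σ (some a) (y, 0) v), w⟫_ℝ = -⟪v, nu (sl0 A) y (A.σ (some a) (y, 0) w)⟫_ℝ
    rw [inner_nu, real_inner_comm _ v, inner_nu, real_inner_comm ((sl0 A).σ none y v)]
    exact eq_neg_of_add_eq_zero_left (this.trans (by ring))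
  · change ⟪nu (sl0 A) y (Z (y, 0) v), w⟫_ℝ = ⟪v, nu (sl0 A) y (Z (y, 0) w)⟫_ℝ
    rw [inner_nu, real_inner_comm _ v, inner_nu, real_inner_comm ((sl0 A).σ none y v)]
    exact hZ (y, 0) v w hv hw

end Crest.Agent.X212.Op78
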